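import Vale.Agent.P011UQ.IF
import Vale.Agent.P011.Hey.H63.PlaceRes

/-!
The choice of a quadratic extension which stays a field at finitely many places.
-/

namespace Vale.Agent.P011UQ5

open Module Vale.Agent.P011 Vale.Agent.P011.H738 Vale.Agent.P011.H271 Vale.Agent.P011UQ

section one
variable {k : Type} [Field k] (v : Place k)

/-- The condition Lt in the dense subfield. -/
def Lg (a : k) : Prop := (1 < v.abv a ∧ ∀ y, v.abv y ^ 2 ≠ v.abv a) ∨
  (v.abv a ≤ 1 ∧ ∀ y, v.abv y ≤ 1 → ¬v.abv (y ^ 2 + y + a) < 1)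

variable {v}

theorem add_lt {x y : k} {c : ℝ} (hx : v.abv x < c) (hy : v.abv y < c) : v.abv (x + y) < c :=
  (v.nonarch x y).trans_lt (max_lt hx hy)

theorem add_le {x y : k} {c : ℝ} (hx : v.abv x ≤ c) (hy : v.abv y ≤ c) : v.abv (x + y) ≤ c :=
  (v.nonarch x y).trans (max_le hx hy)

theorem add_eq {x y : k} (h : v.abv x < v.abv y) : v.abv (x + y) = v.abv y := by
  refine le_antisymm (add_le h.le le_rfl) (not_lt.1 fun u => ?_)
  have := add_lt u ((v.abv.map_neg x).trans_lt h)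
  rw [show x + y + -x = y by ring] at this
  exact lt_irrefl _ this

theorem le_add {x y : k} (h : v.abv x ≠ v.abv y) :
    v.abv x ≤ v.abv (x + y) ∧ v.abv y ≤ v.abv (x + y) := by
  rcases lt_or_gt_of_ne h with u | u
  · rw [add_eq u]; exact ⟨u.le, le_rfl⟩
  · rw [add_comm, add_eq u]; exact ⟨le_rfl, u.le⟩

theorem pol_lt {y z a : k} (hy : v.abv y ≤ 1) (h : v.abv (z - y) < 1)
    (e : v.abv (y ^ 2 + y + a) < 1) : v.abv (z ^ 2 + z + a) < 1 := by
  rw [show z ^ 2 + z + a = y ^ 2 + y + a + (z - y) * (z - y + (y + (y + 1))) by ring]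
  refine add_lt e ?_
  rw [map_mul]
  exact mul_lt_one_of_nonneg_of_lt_one_left (v.abv.nonneg _) h
    (add_le h.le (add_le hy (add_le hy (map_one _).le)))

theorem Lg.near {a b : k} (h : Lg v a) (e : v.abv (b - a) < 1) : Lg v b := by
  rcases h with ⟨h1, h2⟩ | ⟨h1, h2⟩
  · have := add_eq (e.trans h1)
    rw [sub_add_cancel] at this
    exact .inl (this ▸ ⟨h1, h2⟩)
  · refine .inr ⟨sub_add_cancel b a ▸ add_le e.le h1, fun y hy u => h2 y hy ?_⟩
    rw [show y ^ 2 + y + a = y ^ 2 + y + b + -(b - a) by ring]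
    exact add_lt u ((v.abv.map_neg _).trans_lt e)

theorem Lg.lt {a : k} (h : Lg v a) : Lt (algebraMap k v.comp a) := by
  rcases h with ⟨h1, h2⟩ | ⟨h1, h2⟩
  · refine .inl ⟨by rwa [norm_alg], fun y e => ?_⟩
    rw [norm_alg] at e
    have y0 : 0 < ‖y‖ := norm_pos_iff.2 fun u => by
      rw [u, norm_zero] at e
      linarith
    obtain ⟨z, hz⟩ := dense_alg v y y0
    refine h2 z ?_
    rw [← norm_sub_rev] at hz
    have := IsUltrametricDist.norm_add_eq_max_of_norm_ne_norm hz.ne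
    rw [sub_add_cancel, max_eq_right hz.le, norm_alg] at this
    rw [this, e]
  · refine .inr ⟨by rwa [norm_alg], fun y hy u => ?_⟩
    obtain ⟨z, hz⟩ := dense_alg v y one_pos
    rw [← norm_sub_rev] at hz
    have ad : ∀ {x y : v.comp}, ‖x‖ ≤ 1 → ‖y‖ ≤ 1 → ‖x + y‖ ≤ 1 := fun a b =>
      (IsUltrametricDist.norm_add_le_max _ _).trans (max_le a b)
    refine h2 z ?_ ?_
    · rw [← norm_alg, ← sub_add_cancel (algebraMap k v.comp z) y]
      exact ad hz.le hy
    · rw [← norm_alg, map_add, map_add, map_pow]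
      generalize algebraMap k v.comp z = t at hz
      generalize algebraMap k v.comp a = b at u
      rw [show t ^ 2 + t + b = y ^ 2 + y + b + (t - y) * (t - y + (y + (y + 1))) by ring]
      refine (IsUltrametricDist.norm_add_le_max _ _).trans_lt (max_lt u ?_)
      rw [norm_mul]
      exact mul_lt_one_of_nonneg_of_lt_one_left (norm_nonneg _) hz
        (ad hz.le (ad hy (ad hy norm_one.le)))

theorem ex_ram (v : Place k) : ∃ a, 1 < v.abv a ∧ ∀ y, v.abv y ^ 2 ≠ v.abv a := by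
  obtain ⟨a, ha⟩ : ∃ a, v.abv a = qq v := v.normalized.2.1
  refine ⟨a, ha ▸ one_lt_qq' v, fun y e => ?_⟩
  rcases eq_or_ne y 0 with rfl | y0
  · rw [map_zero, ha] at e
    linarith [qq_pos v]
  obtain ⟨m, hm⟩ := exists_eq_zpow v y0
  rw [hm, ha, ← zpow_natCast, ← zpow_mul] at e
  have := zpow_right_injective₀ (qq_pos v) (one_lt_qq' v).ne' (e.trans (zpow_one _).symm)
  omega

theorem ex_unr (v : Place k) :
    ∃ a, v.abv a ≤ 1 ∧ ∀ y, v.abv y ≤ 1 → ¬v.abv (y ^ 2 + y + a) < 1 := by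
  have := v.normalized.1
  have n : Nontrivial (integers v.abv v.nonarch ⧸ maxIdeal v.abv v.nonarch) :=
    Finite.one_lt_card_iff_nontrivial.1 (one_lt_qq v)
  have s : ¬Function.Surjective
      fun y : integers v.abv v.nonarch ⧸ maxIdeal v.abv v.nonarch => -(y ^ 2 + y) := fun s =>
    neg_ne_zero.2 one_ne_zero (Finite.injective_iff_surjective.2 s (a₁ := -1) (a₂ := 0) (by ring))
  obtain ⟨b, hb⟩ := not_forall.1 s
  obtain ⟨a, rfl⟩ := Ideal.Quotient.mk_surjective b
  refine ⟨a, a.2, fun y hy u => hb ⟨Ideal.Quotient.mk _ ⟨y, hy⟩, ?_⟩⟩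
  have : Ideal.Quotient.mk (maxIdeal v.abv v.nonarch) (⟨y, hy⟩ ^ 2 + ⟨y, hy⟩ + a) = 0 :=
    Ideal.Quotient.eq_zero_iff_mem.2 u
  rw [map_add, map_add, map_pow] at this
  exact neg_eq_of_add_eq_zero_right this

theorem approx {S : Set (Place k)} (hS : S.Finite) (x : Place k → k) {ε : ℝ} (e : 0 < ε) :
    ∃ y, ∀ v ∈ S, v.abv (y - x v) < ε := by
  have := hS.fintype
  obtain ⟨a, ha⟩ := (AbsoluteValue.denseRange_algebraMap_pi (F := k) (v := fun i : S => i.1.abv)
    (fun i => by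
      obtain ⟨a, a1, -⟩ := ex_ram i.1
      exact ⟨a, i.1.abv.pos_iff.1 (one_pos.trans a1), a1.ne'⟩)
    fun i j hij h => hij (Subtype.ext (toPl_injective (Subtype.ext (SetLike.ext fun x => by
      change plV i.1 x ≤ 1 ↔ plV j.1 x ≤ 1
      rw [plV_le_one, plV_le_one]
      simpa using h x 1))))).exists_dist_lt (fun i => WithAbs.toAbs i.1.abv (x i)) e
  refine ⟨a, fun v m => ?_⟩
  have h1 := (dist_le_pi_dist _ _ (⟨v, m⟩ : S)).trans_lt ha
  rw [dist_comm, dist_eq_norm] at h1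
  exact h1

theorem small {s t A B : k} {C : ℝ} (h : t * A + s * B = 0) (ht : v.abv t = 1)
    (hs : v.abv s < 1 / C) (C0 : 0 < C) (hB : v.abv B ≤ C) : v.abv A < 1 := by
  have := congrArg v.abv (eq_neg_of_add_eq_zero_left h)
  rw [v.abv.map_neg, map_mul, map_mul, ht, one_mul] at this
  rw [lt_div_iff₀ C0] at hs
  exact this.trans_lt ((mul_le_mul_of_nonneg_left hB (v.abv.nonneg _)).trans_lt hs)

end one

variable {k F : Type} [Field k] [Field F] [Algebra k F]

/-- The place w lies above v. -/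
def Bl (v : Place k) (w : Place F) : Prop :=
  ∀ x y, w.abv (algebraMap k F x) ≤ w.abv (algebraMap k F y) ↔ v.abv x ≤ v.abv y

variable {v : Place k} {w : Place F}

theorem Bl.le (h : Bl v w) {x : k} : w.abv (algebraMap k F x) ≤ 1 ↔ v.abv x ≤ 1 := by
  simpa using h x 1

theorem Bl.ge (h : Bl v w) {x : k} : 1 ≤ w.abv (algebraMap k F x) ↔ 1 ≤ v.abv x := by
  simpa using h 1 x

theorem Bl.lt (h : Bl v w) {x : k} : w.abv (algebraMap k F x) < 1 ↔ v.abv x < 1 := by
  rw [← not_le, h.ge, not_le]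

theorem Bl.ne (h : Bl v w) {a : k} {p : F} (ha : ∀ y, v.abv y ^ 2 ≠ v.abv a)
    (e : w.abv p ^ 2 = w.abv (algebraMap k F a)) (x : k) {y : k} (y0 : y ≠ 0) :
    w.abv (algebraMap k F x) ≠ w.abv (algebraMap k F y * p) := fun u => ha (x / y) (by
  have : w.abv (algebraMap k F ((x / y) ^ 2)) = w.abv (algebraMap k F a) := by
    rw [← e, map_pow, map_pow, map_div₀, map_div₀, u, map_mul,
      mul_div_cancel_left₀ _ (w.abv.pos ((map_ne_zero _).2 y0)).ne']
  rw [← map_pow]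
  exact le_antisymm ((h _ _).1 this.le) ((h _ _).1 this.ge))

theorem Bl.res (h : Bl v w) {a : k} {u : F} (ha : ∀ y, v.abv y ≤ 1 → ¬v.abv (y ^ 2 + y + a) < 1)
    (u1 : w.abv u ≤ 1) (e : w.abv (u ^ 2 + u + algebraMap k F a) < 1) {x y : k}
    (hx : v.abv x ≤ 1) (s : w.abv (algebraMap k F x + algebraMap k F y * u) < 1) :
    v.abv x < 1 ∧ v.abv y < 1 := by
  rcases lt_or_ge (v.abv y) 1 with y1 | y1
  · refine ⟨h.lt.1 ?_, y1⟩
    rw [← add_neg_cancel_right (algebraMap k F x) (algebraMap k F y * u)]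
    refine add_lt s ?_
    rw [w.abv.map_neg, map_mul]
    exact mul_lt_one_of_nonneg_of_lt_one_left (w.abv.nonneg _) (h.lt.2 y1) u1
  have y0 : y ≠ 0 := fun f => by
    rw [f, map_zero] at y1
    linarith
  have z0 : algebraMap k F y ≠ 0 := (map_ne_zero _).2 y0
  refine (ha (-x / y) ?_ (h.lt.1 ?_)).elim
  · rw [map_div₀, v.abv.map_neg]
    exact (div_le_one (v.abv.pos y0)).2 (hx.trans y1)
  · rw [map_add (algebraMap k F), map_add (algebraMap k F), map_pow (algebraMap k F)]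
    refine pol_lt u1 ?_ e
    rw [show algebraMap k F (-x / y) - u = -(algebraMap k F x + algebraMap k F y * u) /
      algebraMap k F y by rw [map_div₀, map_neg]; field_simp; ring, map_div₀, w.abv.map_neg]
    exact (div_lt_one (w.abv.pos z0)).2 (s.trans_le (h.ge.2 y1))

theorem Bl.val (h : Bl v w) {a : k} {u : F} (ha : ∀ y, v.abv y ≤ 1 → ¬v.abv (y ^ 2 + y + a) < 1)
    (u1 : w.abv u ≤ 1) (e : w.abv (u ^ 2 + u + algebraMap k F a) < 1) (x y : k) :
    ∃ z : k, w.abv (algebraMap k F x + algebraMap k F y * u) = w.abv (algebraMap k F z) ∧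
      (z = 0 → x = 0 ∧ y = 0) := by
  obtain ⟨z, zx, zy, o⟩ : ∃ z, v.abv x ≤ v.abv z ∧ v.abv y ≤ v.abv z ∧ (z = x ∨ z = y) := by
    rcases le_total (v.abv x) (v.abv y) with t | t
    exacts [⟨y, t, le_rfl, .inr rfl⟩, ⟨x, le_rfl, t, .inl rfl⟩]
  have n : z = 0 → x = 0 ∧ y = 0 := fun f => by
    rw [f, map_zero, v.abv.nonpos_iff] at zx zy
    exact ⟨zx, zy⟩
  refine ⟨z, ?_, n⟩
  rcases eq_or_ne z 0 with f | z0
  · simp [f, n f]
  have z1 : algebraMap k F z ≠ 0 := (map_ne_zero _).2 z0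
  have a1 : v.abv (x / z) ≤ 1 := by rw [map_div₀]; exact (div_le_one (v.abv.pos z0)).2 zx
  have a2 : v.abv (y / z) ≤ 1 := by rw [map_div₀]; exact (div_le_one (v.abv.pos z0)).2 zy
  have : w.abv (algebraMap k F (x / z) + algebraMap k F (y / z) * u) = 1 := by
    refine le_antisymm (add_le (h.le.2 a1) ?_) (not_lt.1 fun s => ?_)
    · rw [map_mul]
      exact mul_le_one₀ (h.le.2 a2) (w.abv.nonneg _) u1
    · have := h.res ha u1 e a1 s
      rcases o with rfl | rfl <;> simp [z0] at this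
  rw [show algebraMap k F x + algebraMap k F y * u = (algebraMap k F (x / z) +
    algebraMap k F (y / z) * u) * algebraMap k F z by rw [map_div₀, map_div₀]; field_simp,
    map_mul, this, one_mul]

theorem rel4 [FiniteDimensional k F] (h : finrank k F ≤ 3) (v : Place k) (b : Fin 4 → F) :
    ∃ x : Fin 4 → k, ∑ i, algebraMap k F (x i) * b i = 0 ∧ (∀ i, v.abv (x i) ≤ 1) ∧
      ∃ i, x i = 1 := by
  obtain ⟨g, e, j, hj⟩ := Fintype.not_linearIndependent_iff.1 fun l : LinearIndependent k b => by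
    have := l.fintype_card_le_finrank
    rw [Fintype.card_fin] at this
    omega
  obtain ⟨i, hi⟩ := Finite.exists_max fun i => v.abv (g i)
  have p := (v.abv.pos hj).trans_le (hi j)
  have i0 : g i ≠ 0 := v.abv.pos_iff.1 p
  refine ⟨fun j => g j / g i, ?_, fun j => ?_, i, div_self i0⟩
  · simp only [div_eq_inv_mul, ← Algebra.smul_def, mul_smul, ← Finset.smul_sum, e, smul_zero]
  · rw [map_div₀]
    exact (div_le_one p).2 (hi j)

theorem loc [FiniteDimensional k F] (h : finrank k F ≤ 3) (v : Place k) :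
    ∃ a, Lg v a ∧ ∀ w : Place F, Bl v w → Lg w (algebraMap k F a) := by
  classical
  obtain ⟨a, a1, a2⟩ := ex_ram v
  obtain ⟨b, b1, b2⟩ := ex_unr v
  by_contra! H
  obtain ⟨w0, l0, n0⟩ := H a (.inl ⟨a1, a2⟩)
  obtain ⟨w1, l1, n1⟩ := H b (.inr ⟨b1, b2⟩)
  have a3 : 1 < w0.abv (algebraMap k F a) := by rw [← not_le, l0.le, not_le]; exact a1
  obtain ⟨p, hp⟩ : ∃ p, w0.abv p ^ 2 = w0.abv (algebraMap k F a) := by
    by_contra! t
    exact n0 (.inl ⟨a3, t⟩)
  obtain ⟨u, u1, hu⟩ : ∃ u, w1.abv u ≤ 1 ∧ w1.abv (u ^ 2 + u + algebraMap k F b) < 1 := by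
    by_contra! t
    exact n1 (.inr ⟨l1.le.2 b1, fun y hy => (t y hy).not_gt⟩)
  have p1 : 1 < w0.abv p := by nlinarith [w0.abv.nonneg p]
  rcases eq_or_ne w0 w1 with rfl | ne
  · obtain ⟨x, e, -, i, hi⟩ := rel4 h v ![1, u, p, u * p]
    obtain ⟨z, z1, z2⟩ := l0.val b2 u1 hu (x 0) (x 1)
    obtain ⟨y, y1, y2⟩ := l0.val b2 u1 hu (x 2) (x 3)
    have e' : algebraMap k F (x 0) + algebraMap k F (x 1) * u =
        -((algebraMap k F (x 2) + algebraMap k F (x 3) * u) * p) := by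
      simp only [Fin.sum_univ_four, Matrix.cons_val] at e
      linear_combination e
    rw [e', w0.abv.map_neg, map_mul, y1, ← map_mul] at z1
    have y0 : y = 0 := by_contra fun t => l0.ne a2 hp z t z1.symm
    have z0 : z = 0 := by simpa [y0] using z1.symm
    have : x i = 0 := by
      fin_cases i
      exacts [(z2 z0).1, (z2 z0).2, (y2 y0).1, (y2 y0).2]
    exact one_ne_zero (hi.symm.trans this)
  have c0 : 0 < 1 + w0.abv u := by positivity
  have c1 : 0 < 1 + w1.abv p := by positivity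
  obtain ⟨t, ht⟩ := approx (Set.toFinite {w0, w1}) (fun w => if w = w0 then 1 else 0)
    (lt_min (one_div_pos.2 c0) (one_div_pos.2 c1))
  have t0 := (ht w0 (.inl rfl)).trans_le (min_le_left ..)
  have t1 := (ht w1 (.inr rfl)).trans_le (min_le_right ..)
  rw [if_pos rfl] at t0
  rw [if_neg ne.symm, sub_zero] at t1
  have o : ∀ {c : ℝ}, 0 ≤ c → 1 / (1 + c) ≤ 1 := fun c => (div_le_one (by linarith)).2 (by linarith)
  obtain ⟨x, e, x1, i, hi⟩ := rel4 h v ![t, t * p, t - 1, (t - 1) * u]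
  have e' : t * (algebraMap k F (x 0) + algebraMap k F (x 1) * p) +
      (t - 1) * (algebraMap k F (x 2) + algebraMap k F (x 3) * u) = 0 := by
    simp only [Fin.sum_univ_four, Matrix.cons_val] at e
    linear_combination e
  have bd : ∀ {w : Place F}, Bl v w → ∀ i j q,
      w.abv (algebraMap k F (x i) + algebraMap k F (x j) * q) ≤ 1 + w.abv q := fun {w} l i j q => by
    refine (w.abv.add_le _ _).trans (add_le_add (l.le.2 (x1 i)) ?_)
    rw [map_mul]
    exact mul_le_of_le_one_left (w.abv.nonneg _) (l.le.2 (x1 j))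
  have s0 := small e' (by
    rw [← sub_add_cancel t 1, add_eq ((t0.trans_le (o (w0.abv.nonneg _))).trans_eq
      (map_one _).symm), map_one]) t0 c0 (bd l0 2 3 u)
  have s1 := small ((add_comm _ _).trans e') (by
    rw [sub_eq_add_neg, add_eq ((t1.trans_le (o (w1.abv.nonneg _))).trans_eq (by simp))]
    simp) t1 c1 (bd l1 0 1 p)
  have r1 := l1.res b2 u1 hu (x1 2) s1
  have r0 : v.abv (x 0) < 1 ∧ v.abv (x 1) < 1 := by
    rcases eq_or_ne (x 1) 0 with f | f
    · rw [f, map_zero, zero_mul, add_zero] at s0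
      exact ⟨l0.lt.1 s0, by simp [f]⟩
    · have := le_add (l0.ne a2 hp (x 0) f)
      refine ⟨l0.lt.1 (this.1.trans_lt s0), l0.lt.1 (lt_of_le_of_lt ?_ (this.2.trans_lt s0))⟩
      rw [map_mul]
      exact le_mul_of_one_le_right (w0.abv.nonneg _) p1.le
  have : v.abv (x i) < 1 := by
    fin_cases i
    exacts [r0.1, r0.2, r1.1, r1.2]
  simp [hi] at this

theorem exq : EXQ := fun k F _ _ _ _ _ _ _ h S S' hS hS' => by
  choose bl c c0 hc using fun w : Place F => Hey.H63.exists_below (k := k) w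
  choose a a1 a2 using loc h
  have l : ∀ w, Bl (bl w) w := fun w x y => by
    rw [hc, hc, Real.rpow_le_rpow_iff ((bl w).abv.nonneg _) ((bl w).abv.nonneg _) (c0 w)]
  obtain ⟨y, hy⟩ := approx (hS.union (hS'.image bl)) a one_pos
  refine ⟨y, fun v m => ((a1 v).near (hy v (.inl m))).lt, fun w m =>
    ((a2 _ w (l w)).near ?_).lt⟩
  rw [← map_sub]
  exact (l w).lt.2 (hy _ (.inr ⟨w, m, rfl⟩))

end Vale.Agent.P011UQ5
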